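import Vale.Agent.Lib.P329.CertFive

/-!
The table of certificates for the subsequence counts of length five.
-/

namespace Vale.Agent.Lib.P329

/-- The certificate of one pattern. -/
def certE0 : List (Fin 6) × ℤ × List (ℤ × GenF) :=
  ([0, 0, 0, 0, 0], 6, [
    (1, GenF.summ [0] 0 [(0, 1), (0, 1)])])

/-- The certificate of one pattern. -/
def certE1 : List (Fin 6) × ℤ × List (ℤ × GenF) :=
  ([0, 0, 0, 0, 1], 12, [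
    (3, GenF.prod [0] [0, 0, 0, 1]),
    (-1, GenF.prod [0] [0, 0, 1, 0]),
    (1, GenF.prod [0] [0, 1, 0, 0]),
    (-3, GenF.prod [0] [1, 0, 0, 0]),
    (2, GenF.stat [0] 1 0 [(0, 1), (0, 1)])])

/-- The certificate of one pattern. -/
def certE2 : List (Fin 6) × ℤ × List (ℤ × GenF) :=
  ([0, 0, 0, 1, 0], 3, [
    (1, GenF.prod [0] [0, 0, 1, 0]),
    (-1, GenF.prod [0] [0, 1, 0, 0]),
    (3, GenF.prod [0] [1, 0, 0, 0]),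
    (-2, GenF.stat [0] 1 0 [(0, 1), (0, 1)])])

/-- The certificate of one pattern. -/
def certE3 : List (Fin 6) × ℤ × List (ℤ × GenF) :=
  ([0, 0, 0, 1, 1], 6, [
    (-3, GenF.prod [0] [0, 1, 0, 1]),
    (-3, GenF.prod [0] [0, 1, 1, 0]),
    (-1, GenF.summ [0, 1] 0 [(0, 0), (0, 0), (1, 1)]),
    (2, GenF.stat [0] 1 0 [(0, 1), (0, 1)]),
    (-3, GenF.prod [0] [1, 0, 1, 1]),
    (-3, GenF.prod [0] [1, 1, 0, 1]),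
    (-1, GenF.summ [0, 1] 0 [(0, 0), (0, 0), (0, 1)]),
    (2, GenF.summ [0, 1] 0 [(0, 0), (1, 0), (1, 1)]),
    (-3, GenF.prod [0] [0, 1, 1, 1]),
    (-3, GenF.prod [0] [1, 1, 1, 0]),
    (-6, GenF.prod [0] [1, 1, 1, 1]),
    (2, GenF.summ [0, 1] 0 [(0, 0), (0, 1), (1, 0)]),
    (1, GenF.stat [1] 0 0 [(1, 1), (1, 1)])])

/-- The certificate of one pattern. -/
def certE4 : List (Fin 6) × ℤ × List (ℤ × GenF) :=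
  ([0, 0, 1, 0, 0], 2, [
    (1, GenF.prod [0] [0, 1, 0, 0]),
    (-3, GenF.prod [0] [1, 0, 0, 0]),
    (2, GenF.stat [0] 1 0 [(0, 1), (0, 1)])])

/-- The certificate of one pattern. -/
def certE5 : List (Fin 6) × ℤ × List (ℤ × GenF) :=
  ([0, 0, 1, 0, 1], 12, [
    (6, GenF.prod [0] [0, 1, 0, 1]),
    (-12, GenF.prod [0] [1, 0, 0, 1]),
    (-6, GenF.prod [0] [1, 0, 1, 0]),
    (6, GenF.summ [0, 1] 0 [(0, 0), (0, 0), (0, 1)]),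
    (-9, GenF.prod [0] [0, 0, 0, 1]),
    (-5, GenF.prod [0] [0, 0, 1, 0]),
    (-1, GenF.prod [0] [0, 1, 0, 0]),
    (3, GenF.prod [0] [1, 0, 0, 0]),
    (-14, GenF.stat [0] 1 0 [(0, 1), (0, 1)])])

/-- The certificate of one pattern. -/
def certE6 : List (Fin 6) × ℤ × List (ℤ × GenF) :=
  ([0, 0, 1, 1, 0], 12, [
    (18, GenF.prod [0] [0, 1, 1, 0]),
    (6, GenF.prod [0] [1, 0, 1, 0]),
    (12, GenF.prod [0] [0, 0, 1, 1]),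
    (12, GenF.prod [0] [0, 1, 0, 1]),
    (9, GenF.prod [0] [0, 0, 0, 1]),
    (5, GenF.prod [0] [0, 0, 1, 0]),
    (1, GenF.prod [0] [0, 1, 0, 0]),
    (-3, GenF.prod [0] [1, 0, 0, 0]),
    (2, GenF.stat [0] 1 0 [(0, 1), (0, 1)]),
    (12, GenF.prod [0] [1, 0, 0, 1]),
    (6, GenF.summ [0, 1] 0 [(0, 0), (0, 0), (1, 1)]),
    (18, GenF.prod [0] [1, 0, 1, 1]),
    (18, GenF.prod [0] [1, 1, 0, 1]),
    (-12, GenF.summ [0, 1] 0 [(0, 0), (1, 0), (1, 1)]),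
    (18, GenF.prod [0] [0, 1, 1, 1]),
    (18, GenF.prod [0] [1, 1, 1, 0]),
    (36, GenF.prod [0] [1, 1, 1, 1]),
    (-12, GenF.summ [0, 1] 0 [(0, 0), (0, 1), (1, 0)]),
    (-6, GenF.stat [1] 0 0 [(1, 1), (1, 1)])])

/-- The certificate of one pattern. -/
def certE7 : List (Fin 6) × ℤ × List (ℤ × GenF) :=
  ([0, 0, 1, 1, 1], 12, [
    (-6, GenF.prod [0] [0, 1, 1, 1]),
    (-18, GenF.prod [0] [1, 0, 1, 1]),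
    (-18, GenF.prod [0] [1, 1, 0, 1]),
    (-18, GenF.prod [0] [1, 1, 1, 0]),
    (8, GenF.summ [0, 1] 0 [(0, 0), (1, 0), (1, 1)]),
    (-12, GenF.prod [0] [0, 1, 0, 1]),
    (-12, GenF.prod [0] [0, 1, 1, 0]),
    (-12, GenF.prod [0] [1, 0, 0, 1]),
    (-12, GenF.prod [0] [1, 0, 1, 0]),
    (-12, GenF.prod [0] [1, 1, 0, 0]),
    (-12, GenF.prod [0] [0, 0, 1, 1]),
    (2, GenF.summ [0, 1] 0 [(0, 0), (0, 0), (0, 1)]),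
    (-9, GenF.prod [0] [0, 0, 0, 1]),
    (-9, GenF.prod [0] [0, 0, 1, 0]),
    (-9, GenF.prod [0] [0, 1, 0, 0]),
    (-9, GenF.prod [0] [1, 0, 0, 0]),
    (2, GenF.stat [0] 1 0 [(0, 1), (0, 1)]),
    (-24, GenF.prod [0] [1, 1, 1, 1]),
    (2, GenF.summ [0, 1] 0 [(0, 0), (0, 0), (1, 1)]),
    (8, GenF.summ [0, 1] 0 [(0, 0), (0, 1), (1, 0)]),
    (4, GenF.stat [1] 0 0 [(1, 1), (1, 1)])])

/-- The certificate of one pattern. -/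
def certE8 : List (Fin 6) × ℤ × List (ℤ × GenF) :=
  ([0, 1, 0, 0, 0], 3, [
    (3, GenF.prod [0] [1, 0, 0, 0]),
    (-2, GenF.stat [0] 1 0 [(0, 1), (0, 1)])])

/-- The certificate of one pattern. -/
def certE9 : List (Fin 6) × ℤ × List (ℤ × GenF) :=
  ([0, 1, 0, 0, 1], 4, [
    (12, GenF.prod [0] [1, 0, 0, 1]),
    (6, GenF.prod [0] [0, 1, 0, 1]),
    (12, GenF.prod [0] [0, 1, 1, 0]),
    (6, GenF.prod [0] [1, 0, 1, 0]),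
    (4, GenF.prod [0, 1] [0, 0, 1]),
    (-2, GenF.summ [0, 1] 0 [(0, 0), (0, 0), (0, 1)]),
    (9, GenF.prod [0] [0, 0, 0, 1]),
    (5, GenF.prod [0] [0, 0, 1, 0]),
    (1, GenF.prod [0] [0, 1, 0, 0]),
    (-3, GenF.prod [0] [1, 0, 0, 0]),
    (6, GenF.stat [0] 1 0 [(0, 1), (0, 1)]),
    (4, GenF.summ [0, 1] 0 [(0, 0), (0, 0), (1, 1)]),
    (12, GenF.prod [0] [1, 0, 1, 1]),
    (12, GenF.prod [0] [1, 1, 0, 1]),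
    (-8, GenF.summ [0, 1] 0 [(0, 0), (1, 0), (1, 1)]),
    (12, GenF.prod [0] [0, 1, 1, 1]),
    (12, GenF.prod [0] [1, 1, 1, 0]),
    (24, GenF.prod [0] [1, 1, 1, 1]),
    (-8, GenF.summ [0, 1] 0 [(0, 0), (0, 1), (1, 0)]),
    (-4, GenF.stat [1] 0 0 [(1, 1), (1, 1)])])

/-- The certificate of one pattern. -/
def certE10 : List (Fin 6) × ℤ × List (ℤ × GenF) :=
  ([0, 1, 0, 1, 0], 3, [
    (-6, GenF.prod [0] [1, 0, 1, 0]),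
    (-6, GenF.prod [0, 1] [0, 0, 1]),
    (-9, GenF.prod [0] [0, 1, 0, 1]),
    (-18, GenF.prod [0] [0, 1, 1, 0]),
    (-9, GenF.prod [0] [0, 0, 0, 1]),
    (-5, GenF.prod [0] [0, 0, 1, 0]),
    (-1, GenF.prod [0] [0, 1, 0, 0]),
    (3, GenF.prod [0] [1, 0, 0, 0]),
    (-2, GenF.stat [0] 1 0 [(0, 1), (0, 1)]),
    (-12, GenF.prod [0] [1, 0, 0, 1]),
    (-6, GenF.summ [0, 1] 0 [(0, 0), (0, 0), (1, 1)]),
    (-18, GenF.prod [0] [1, 0, 1, 1]),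
    (-18, GenF.prod [0] [1, 1, 0, 1]),
    (12, GenF.summ [0, 1] 0 [(0, 0), (1, 0), (1, 1)]),
    (-18, GenF.prod [0] [0, 1, 1, 1]),
    (-18, GenF.prod [0] [1, 1, 1, 0]),
    (-36, GenF.prod [0] [1, 1, 1, 1]),
    (12, GenF.summ [0, 1] 0 [(0, 0), (0, 1), (1, 0)]),
    (6, GenF.stat [1] 0 0 [(1, 1), (1, 1)])])

/-- The certificate of one pattern. -/
def certE11 : List (Fin 6) × ℤ × List (ℤ × GenF) :=
  ([0, 1, 0, 1, 1], 6, [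
    (27, GenF.prod [0] [1, 0, 1, 1]),
    (3, GenF.prod [0] [0, 1, 1, 1]),
    (33, GenF.prod [0] [1, 1, 0, 1]),
    (39, GenF.prod [0] [1, 1, 1, 0]),
    (6, GenF.prod [0, 1] [0, 1, 1]),
    (-8, GenF.summ [0, 1] 0 [(0, 0), (0, 1), (1, 0)]),
    (18, GenF.prod [0] [0, 0, 0, 1]),
    (20, GenF.prod [0] [0, 0, 1, 0]),
    (18, GenF.prod [0] [0, 0, 1, 1]),
    (22, GenF.prod [0] [0, 1, 0, 0]),
    (24, GenF.prod [0] [0, 1, 1, 0]),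
    (24, GenF.prod [0] [1, 0, 0, 0]),
    (24, GenF.prod [0] [1, 0, 0, 1]),
    (27, GenF.prod [0] [1, 0, 1, 0]),
    (30, GenF.prod [0] [1, 1, 0, 0]),
    (-8, GenF.summ [0, 1] 0 [(0, 0), (0, 0), (0, 1)]),
    (-11, GenF.summ [0, 1] 0 [(0, 0), (0, 0), (1, 1)]),
    (-14, GenF.summ [0, 1] 0 [(0, 0), (1, 0), (1, 1)]),
    (21, GenF.prod [0] [0, 1, 0, 1]),
    (42, GenF.prod [0] [1, 1, 1, 1]),
    (-7, GenF.stat [1] 0 0 [(1, 1), (1, 1)])])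

/-- The certificate of one pattern. -/
def certE12 : List (Fin 6) × ℤ × List (ℤ × GenF) :=
  ([0, 1, 1, 0, 0], 12, [
    (9, GenF.prod [0] [0, 0, 0, 1]),
    (5, GenF.prod [0] [0, 0, 1, 0]),
    (1, GenF.prod [0] [0, 1, 0, 0]),
    (-3, GenF.prod [0] [1, 0, 0, 0]),
    (2, GenF.stat [0] 1 0 [(0, 1), (0, 1)]),
    (12, GenF.prod [0] [1, 0, 0, 1]),
    (12, GenF.prod [0, 1] [0, 0, 1]),
    (6, GenF.summ [0, 1] 0 [(0, 0), (0, 0), (1, 1)]),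
    (-12, GenF.prod [0] [0, 0, 1, 1]),
    (6, GenF.prod [0] [0, 1, 0, 1]),
    (24, GenF.prod [0] [0, 1, 1, 0]),
    (6, GenF.prod [0] [1, 0, 1, 0]),
    (18, GenF.prod [0] [1, 0, 1, 1]),
    (18, GenF.prod [0] [1, 1, 0, 1]),
    (-12, GenF.summ [0, 1] 0 [(0, 0), (1, 0), (1, 1)]),
    (18, GenF.prod [0] [0, 1, 1, 1]),
    (18, GenF.prod [0] [1, 1, 1, 0]),
    (36, GenF.prod [0] [1, 1, 1, 1]),
    (-12, GenF.summ [0, 1] 0 [(0, 0), (0, 1), (1, 0)]),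
    (-6, GenF.stat [1] 0 0 [(1, 1), (1, 1)])])

/-- The certificate of one pattern. -/
def certE13 : List (Fin 6) × ℤ × List (ℤ × GenF) :=
  ([0, 1, 1, 0, 1], 2, [
    (-15, GenF.prod [0] [1, 1, 0, 1]),
    (-9, GenF.prod [0] [1, 0, 1, 1]),
    (3, GenF.prod [0] [0, 1, 1, 1]),
    (-21, GenF.prod [0] [1, 1, 1, 0]),
    (-4, GenF.prod [0, 1] [0, 1, 1]),
    (-9, GenF.prod [0] [0, 0, 0, 1]),
    (-11, GenF.prod [0] [0, 0, 1, 0]),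
    (-6, GenF.prod [0] [0, 0, 1, 1]),
    (-13, GenF.prod [0] [0, 1, 0, 0]),
    (-12, GenF.prod [0] [0, 1, 1, 0]),
    (-15, GenF.prod [0] [1, 0, 0, 0]),
    (-12, GenF.prod [0] [1, 0, 0, 1]),
    (-15, GenF.prod [0] [1, 0, 1, 0]),
    (-18, GenF.prod [0] [1, 1, 0, 0]),
    (-2, GenF.stat [0] 1 0 [(0, 1), (0, 1)]),
    (6, GenF.summ [0, 1] 0 [(0, 0), (0, 0), (0, 1)]),
    (9, GenF.summ [0, 1] 0 [(0, 0), (0, 0), (1, 1)]),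
    (6, GenF.summ [0, 1] 0 [(0, 0), (1, 0), (1, 1)]),
    (-9, GenF.prod [0] [0, 1, 0, 1]),
    (-18, GenF.prod [0] [1, 1, 1, 1]),
    (3, GenF.stat [1] 0 0 [(1, 1), (1, 1)])])

/-- The certificate of one pattern. -/
def certE14 : List (Fin 6) × ℤ × List (ℤ × GenF) :=
  ([0, 1, 1, 1, 0], 3, [
    (21, GenF.prod [0] [1, 1, 1, 0]),
    (3, GenF.prod [0, 1] [0, 1, 1]),
    (9, GenF.prod [0] [1, 0, 1, 1]),
    (9, GenF.prod [0] [0, 0, 0, 1]),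
    (11, GenF.prod [0] [0, 0, 1, 0]),
    (6, GenF.prod [0] [0, 0, 1, 1]),
    (13, GenF.prod [0] [0, 1, 0, 0]),
    (12, GenF.prod [0] [0, 1, 1, 0]),
    (15, GenF.prod [0] [1, 0, 0, 0]),
    (12, GenF.prod [0] [1, 0, 0, 1]),
    (15, GenF.prod [0] [1, 0, 1, 0]),
    (18, GenF.prod [0] [1, 1, 0, 0]),
    (2, GenF.stat [0] 1 0 [(0, 1), (0, 1)]),
    (15, GenF.prod [0] [1, 1, 0, 1]),
    (-6, GenF.summ [0, 1] 0 [(0, 0), (0, 0), (0, 1)]),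
    (-9, GenF.summ [0, 1] 0 [(0, 0), (0, 0), (1, 1)]),
    (-6, GenF.summ [0, 1] 0 [(0, 0), (1, 0), (1, 1)]),
    (9, GenF.prod [0] [0, 1, 0, 1]),
    (18, GenF.prod [0] [1, 1, 1, 1]),
    (-3, GenF.stat [1] 0 0 [(1, 1), (1, 1)])])

/-- The certificate of one pattern. -/
def certE15 : List (Fin 6) × ℤ × List (ℤ × GenF) :=
  ([0, 1, 1, 1, 1], 6, [
    (1, GenF.stat [1] 0 0 [(1, 1), (1, 1)])])

/-- The certificate of one pattern. -/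
def certE16 : List (Fin 6) × ℤ × List (ℤ × GenF) :=
  ([0, 0, 0, 1, 2], 12, [
    (4, GenF.prod [0] [0, 0, 1, 2]),
    (-2, GenF.prod [0] [0, 1, 0, 2]),
    (-2, GenF.prod [0] [0, 1, 2, 0]),
    (4, GenF.prod [0] [1, 0, 0, 2]),
    (4, GenF.prod [0] [1, 0, 2, 0]),
    (4, GenF.prod [0] [1, 2, 0, 0]),
    (-3, GenF.stat [0, 2] 1 0 [(0, 0), (0, 0), (2, 1)]),
    (-3, GenF.stat [0, 2] 1 0 [(0, 0), (0, 0), (0, 1)]),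
    (2, GenF.stat [0, 2] 1 0 [(0, 0), (2, 0), (2, 1)]),
    (2, GenF.stat [0, 2] 1 0 [(0, 0), (0, 1), (2, 0)]),
    (-1, GenF.stat [0, 2] 1 0 [(2, 0), (2, 0), (2, 1)]),
    (-1, GenF.stat [0, 2] 1 0 [(0, 1), (2, 0), (2, 0)])])

/-- The certificate of one pattern. -/
def certE17 : List (Fin 6) × ℤ × List (ℤ × GenF) :=
  ([0, 0, 1, 0, 2], 2, [
    (1, GenF.prod [0] [0, 1, 0, 2]),
    (-2, GenF.prod [0] [1, 0, 0, 2]),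
    (-1, GenF.prod [0] [1, 0, 2, 0]),
    (1, GenF.stat [0, 2] 1 0 [(0, 0), (0, 0), (0, 1)])])

/-- The certificate of one pattern. -/
def certE18 : List (Fin 6) × ℤ × List (ℤ × GenF) :=
  ([0, 0, 1, 1, 2], 12, [
    (-12, GenF.prod [1] [0, 0, 1, 2]),
    (12, GenF.prod [1, 2] [0, 0, 1]),
    (-12, GenF.prod [1] [0, 2, 0, 1]),
    (-12, GenF.prod [1] [0, 0, 2, 1]),
    (-12, GenF.prod [1] [2, 0, 0, 1]),
    (12, GenF.prod [2] [0, 0, 1, 1]),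
    (6, GenF.prod [0] [2, 0, 1, 1]),
    (6, GenF.prod [0] [2, 1, 0, 1]),
    (6, GenF.prod [0] [0, 2, 1, 1]),
    (-6, GenF.prod [0] [2, 1, 1, 0]),
    (2, GenF.stat [0, 1] 2 0 [(0, 3)]),
    (-3, GenF.stat [0, 1] 2 0 [(0, 0), (0, 0), (0, 1)]),
    (-3, GenF.stat [0, 2] 1 0 [(0, 0), (0, 0), (0, 1)]),
    (-12, GenF.prod [2] [0, 0, 0, 1]),
    (-2, GenF.prod [0] [0, 1, 0, 2]),
    (4, GenF.prod [0] [0, 2, 0, 1]),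
    (4, GenF.prod [0] [1, 0, 2, 0]),
    (-2, GenF.prod [0] [2, 0, 1, 0]),
    (4, GenF.prod [0] [1, 0, 0, 2]),
    (4, GenF.prod [0] [2, 0, 0, 1]),
    (-3, GenF.stat [0, 1] 2 0 [(0, 0), (0, 0), (1, 1)]),
    (-3, GenF.stat [0, 2] 1 0 [(0, 0), (0, 0), (2, 1)]),
    (4, GenF.prod [0] [0, 0, 1, 2]),
    (4, GenF.prod [0] [0, 0, 2, 1]),
    (-2, GenF.prod [0] [0, 1, 2, 0]),
    (-2, GenF.prod [0] [0, 2, 1, 0]),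
    (4, GenF.prod [0] [1, 2, 0, 0]),
    (4, GenF.prod [0] [2, 1, 0, 0]),
    (2, GenF.stat [0, 2] 1 0 [(0, 0), (2, 0), (2, 1)]),
    (2, GenF.stat [0, 2] 1 0 [(0, 0), (0, 1), (2, 0)]),
    (-1, GenF.stat [0, 2] 1 0 [(2, 0), (2, 0), (2, 1)]),
    (-1, GenF.stat [0, 2] 1 0 [(0, 1), (2, 0), (2, 0)]),
    (6, GenF.stat [0, 1] 2 0 [(0, 0), (0, 1), (1, 0)]),
    (6, GenF.stat [0, 1] 2 0 [(0, 0), (1, 0), (1, 1)]),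
    (-6, GenF.stat [1, 2] 0 0 [(1, 0), (1, 0), (2, 1)]),
    (-12, GenF.prod [2] [0, 1, 1, 1]),
    (12, GenF.prod [1] [0, 1, 1, 2]),
    (12, GenF.prod [1] [0, 1, 2, 1]),
    (-12, GenF.prod [1, 2] [0, 1, 1]),
    (12, GenF.prod [1] [2, 0, 1, 1]),
    (12, GenF.prod [1] [0, 2, 1, 1]),
    (4, GenF.stat [1, 2] 0 0 [(1, 0), (2, 0), (2, 1)]),
    (4, GenF.stat [1, 2] 0 0 [(1, 0), (1, 1), (2, 0)]),
    (-2, GenF.stat [1, 2] 0 0 [(2, 0), (2, 0), (2, 1)]),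
    (-2, GenF.stat [1, 2] 0 0 [(1, 1), (2, 0), (2, 0)]),
    (-6, GenF.stat [0, 1] 2 0 [(0, 2), (1, 0)]),
    (-3, GenF.stat [0, 1] 2 0 [(1, 0), (1, 0), (1, 1)]),
    (-3, GenF.stat [0, 1] 2 0 [(0, 1), (1, 0), (1, 0)])])

/-- The certificate of one pattern. -/
def certE19 : List (Fin 6) × ℤ × List (ℤ × GenF) :=
  ([0, 0, 1, 2, 0], 4, [
    (2, GenF.prod [0] [0, 1, 2, 0]),
    (-2, GenF.prod [0] [1, 0, 2, 0]),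
    (-4, GenF.prod [0] [1, 2, 0, 0]),
    (1, GenF.stat [0, 2] 1 0 [(0, 0), (0, 0), (0, 1)]),
    (3, GenF.stat [0, 2] 1 0 [(0, 0), (0, 0), (2, 1)]),
    (-2, GenF.stat [0, 2] 1 0 [(0, 0), (2, 0), (2, 1)]),
    (-2, GenF.stat [0, 2] 1 0 [(0, 0), (0, 1), (2, 0)]),
    (1, GenF.stat [0, 2] 1 0 [(2, 0), (2, 0), (2, 1)]),
    (1, GenF.stat [0, 2] 1 0 [(0, 1), (2, 0), (2, 0)])])

/-- The certificate of one pattern. -/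
def certE20 : List (Fin 6) × ℤ × List (ℤ × GenF) :=
  ([0, 0, 1, 2, 1], 12, [
    (-12, GenF.prod [1, 2] [0, 0, 1]),
    (12, GenF.prod [1] [0, 0, 1, 2]),
    (12, GenF.prod [1] [0, 2, 0, 1]),
    (12, GenF.prod [1] [0, 0, 2, 1]),
    (12, GenF.prod [1] [2, 0, 0, 1]),
    (-12, GenF.prod [0] [2, 0, 1, 1]),
    (-12, GenF.prod [0] [0, 2, 1, 1]),
    (12, GenF.prod [0] [2, 1, 1, 0]),
    (6, GenF.stat [0, 1] 2 0 [(0, 2), (1, 0)]),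
    (3, GenF.stat [0, 1] 2 0 [(0, 0), (0, 0), (1, 1)]),
    (-10, GenF.stat [0, 1] 2 0 [(0, 0), (0, 1), (1, 0)]),
    (-10, GenF.stat [0, 1] 2 0 [(0, 0), (1, 0), (1, 1)]),
    (9, GenF.stat [1, 2] 0 0 [(1, 0), (1, 0), (2, 1)]),
    (3, GenF.stat [1, 2] 0 0 [(1, 0), (1, 0), (1, 1)]),
    (-12, GenF.prod [1] [0, 1, 1, 2]),
    (-12, GenF.prod [1] [0, 1, 2, 1]),
    (12, GenF.prod [1, 2] [0, 1, 1]),
    (-12, GenF.prod [1] [2, 0, 1, 1]),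
    (-12, GenF.prod [1] [0, 2, 1, 1]),
    (-6, GenF.stat [1, 2] 0 0 [(1, 0), (2, 0), (2, 1)]),
    (-6, GenF.stat [1, 2] 0 0 [(1, 0), (1, 1), (2, 0)]),
    (3, GenF.stat [1, 2] 0 0 [(2, 0), (2, 0), (2, 1)]),
    (3, GenF.stat [1, 2] 0 0 [(1, 1), (2, 0), (2, 0)]),
    (5, GenF.stat [0, 1] 2 0 [(1, 0), (1, 0), (1, 1)]),
    (5, GenF.stat [0, 1] 2 0 [(0, 1), (1, 0), (1, 0)]),
    (3, GenF.stat [0, 1] 2 0 [(0, 0), (0, 0), (0, 1)])])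

/-- The certificate of one pattern. -/
def certE21 : List (Fin 6) × ℤ × List (ℤ × GenF) :=
  ([0, 0, 1, 2, 2], 4, [
    (2, GenF.prod [0] [0, 1, 2, 2]),
    (-2, GenF.prod [0] [1, 0, 2, 2]),
    (-2, GenF.prod [0] [1, 2, 0, 2]),
    (-2, GenF.prod [0] [1, 2, 2, 0]),
    (2, GenF.stat [0, 2] 1 0 [(0, 0), (2, 0), (2, 1)]),
    (2, GenF.stat [0, 2] 1 0 [(0, 0), (0, 1), (2, 0)]),
    (-1, GenF.stat [0, 2] 1 0 [(0, 0), (0, 0), (2, 1)]),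
    (-1, GenF.stat [0, 2] 1 0 [(0, 0), (0, 0), (0, 1)]),
    (-1, GenF.stat [0, 2] 1 0 [(2, 0), (2, 0), (2, 1)]),
    (-1, GenF.stat [0, 2] 1 0 [(0, 1), (2, 0), (2, 0)])])

/-- The certificate of one pattern. -/
def certE22 : List (Fin 6) × ℤ × List (ℤ × GenF) :=
  ([0, 1, 0, 0, 2], 4, [
    (4, GenF.prod [0] [1, 0, 0, 2]),
    (-2, GenF.prod [0] [0, 1, 0, 2]),
    (-2, GenF.prod [0] [2, 0, 1, 0]),
    (4, GenF.prod [0, 1] [0, 0, 2]),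
    (3, GenF.stat [0, 1] 2 0 [(0, 0), (0, 0), (1, 1)]),
    (-1, GenF.stat [0, 2] 1 0 [(0, 0), (0, 0), (0, 1)]),
    (3, GenF.stat [0, 2] 1 0 [(0, 0), (0, 0), (2, 1)]),
    (-4, GenF.prod [0] [0, 0, 1, 2]),
    (-4, GenF.prod [0] [0, 0, 2, 1]),
    (2, GenF.prod [0] [0, 1, 2, 0]),
    (2, GenF.prod [0] [0, 2, 1, 0]),
    (-4, GenF.prod [0] [1, 2, 0, 0]),
    (-4, GenF.prod [0] [2, 1, 0, 0]),
    (-2, GenF.stat [0, 2] 1 0 [(0, 0), (2, 0), (2, 1)]),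
    (-2, GenF.stat [0, 2] 1 0 [(0, 0), (0, 1), (2, 0)]),
    (1, GenF.stat [0, 2] 1 0 [(2, 0), (2, 0), (2, 1)]),
    (1, GenF.stat [0, 2] 1 0 [(0, 1), (2, 0), (2, 0)]),
    (-2, GenF.stat [0, 1] 2 0 [(0, 0), (0, 1), (1, 0)]),
    (1, GenF.stat [0, 1] 2 0 [(0, 0), (0, 0), (0, 1)]),
    (-2, GenF.stat [0, 1] 2 0 [(0, 0), (1, 0), (1, 1)]),
    (1, GenF.stat [0, 1] 2 0 [(1, 0), (1, 0), (1, 1)]),
    (1, GenF.stat [0, 1] 2 0 [(0, 1), (1, 0), (1, 0)])])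

/-- The certificate of one pattern. -/
def certE23 : List (Fin 6) × ℤ × List (ℤ × GenF) :=
  ([0, 1, 0, 1, 2], 12, [
    (24, GenF.prod [1] [0, 0, 1, 2]),
    (-24, GenF.prod [1, 2] [0, 0, 1]),
    (24, GenF.prod [1] [0, 2, 0, 1]),
    (24, GenF.prod [1] [0, 0, 2, 1]),
    (24, GenF.prod [1] [2, 0, 0, 1]),
    (-12, GenF.prod [2] [0, 1, 0, 1]),
    (-48, GenF.prod [2] [0, 0, 1, 1]),
    (-12, GenF.prod [0] [2, 1, 0, 1]),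
    (12, GenF.prod [0, 1] [0, 1, 2]),
    (6, GenF.stat [0, 1] 2 0 [(0, 1), (0, 1)]),
    (3, GenF.stat [0, 1] 2 0 [(0, 0), (0, 0), (0, 1)]),
    (-18, GenF.stat [0, 1] 2 0 [(0, 0), (0, 1), (1, 0)]),
    (9, GenF.stat [0, 1] 2 0 [(0, 0), (0, 0), (1, 1)]),
    (-6, GenF.stat [0, 1] 2 0 [(0, 0), (1, 0), (1, 1)]),
    (12, GenF.stat [1, 2] 0 0 [(1, 0), (1, 0), (2, 1)]),
    (24, GenF.prod [2] [0, 1, 1, 1]),
    (-24, GenF.prod [1] [0, 1, 1, 2]),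
    (-24, GenF.prod [1] [0, 1, 2, 1]),
    (24, GenF.prod [1, 2] [0, 1, 1]),
    (-24, GenF.prod [1] [2, 0, 1, 1]),
    (-24, GenF.prod [1] [0, 2, 1, 1]),
    (-8, GenF.stat [1, 2] 0 0 [(1, 0), (2, 0), (2, 1)]),
    (-8, GenF.stat [1, 2] 0 0 [(1, 0), (1, 1), (2, 0)]),
    (4, GenF.stat [1, 2] 0 0 [(2, 0), (2, 0), (2, 1)]),
    (4, GenF.stat [1, 2] 0 0 [(1, 1), (2, 0), (2, 0)]),
    (-4, GenF.stat [0, 1] 2 0 [(0, 3)]),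
    (6, GenF.stat [0, 2] 1 0 [(0, 0), (0, 0), (0, 1)]),
    (24, GenF.prod [2] [0, 0, 0, 1]),
    (4, GenF.prod [0] [0, 1, 0, 2]),
    (-8, GenF.prod [0] [0, 2, 0, 1]),
    (-8, GenF.prod [0] [1, 0, 2, 0]),
    (4, GenF.prod [0] [2, 0, 1, 0]),
    (-8, GenF.prod [0] [1, 0, 0, 2]),
    (-8, GenF.prod [0] [2, 0, 0, 1]),
    (6, GenF.stat [0, 2] 1 0 [(0, 0), (0, 0), (2, 1)]),
    (-8, GenF.prod [0] [0, 0, 1, 2]),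
    (-8, GenF.prod [0] [0, 0, 2, 1]),
    (4, GenF.prod [0] [0, 1, 2, 0]),
    (4, GenF.prod [0] [0, 2, 1, 0]),
    (-8, GenF.prod [0] [1, 2, 0, 0]),
    (-8, GenF.prod [0] [2, 1, 0, 0]),
    (-4, GenF.stat [0, 2] 1 0 [(0, 0), (2, 0), (2, 1)]),
    (-4, GenF.stat [0, 2] 1 0 [(0, 0), (0, 1), (2, 0)]),
    (2, GenF.stat [0, 2] 1 0 [(2, 0), (2, 0), (2, 1)]),
    (2, GenF.stat [0, 2] 1 0 [(0, 1), (2, 0), (2, 0)]),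
    (12, GenF.stat [0, 1] 2 0 [(0, 2), (1, 0)]),
    (3, GenF.stat [0, 1] 2 0 [(1, 0), (1, 0), (1, 1)]),
    (3, GenF.stat [0, 1] 2 0 [(0, 1), (1, 0), (1, 0)])])

/-- The certificate of one pattern. -/
def certE24 : List (Fin 6) × ℤ × List (ℤ × GenF) :=
  ([0, 1, 0, 2, 0], 2, [
    (2, GenF.prod [0] [1, 0, 2, 0]),
    (-4, GenF.prod [0, 1] [0, 0, 2]),
    (2, GenF.prod [0] [0, 1, 0, 2]),
    (2, GenF.prod [0] [2, 0, 1, 0]),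
    (-3, GenF.stat [0, 1] 2 0 [(0, 0), (0, 0), (1, 1)]),
    (-1, GenF.stat [0, 2] 1 0 [(0, 0), (0, 0), (0, 1)]),
    (-3, GenF.stat [0, 2] 1 0 [(0, 0), (0, 0), (2, 1)]),
    (4, GenF.prod [0] [0, 0, 1, 2]),
    (4, GenF.prod [0] [0, 0, 2, 1]),
    (-2, GenF.prod [0] [0, 1, 2, 0]),
    (-2, GenF.prod [0] [0, 2, 1, 0]),
    (4, GenF.prod [0] [1, 2, 0, 0]),
    (4, GenF.prod [0] [2, 1, 0, 0]),
    (2, GenF.stat [0, 2] 1 0 [(0, 0), (2, 0), (2, 1)]),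
    (2, GenF.stat [0, 2] 1 0 [(0, 0), (0, 1), (2, 0)]),
    (-1, GenF.stat [0, 2] 1 0 [(2, 0), (2, 0), (2, 1)]),
    (-1, GenF.stat [0, 2] 1 0 [(0, 1), (2, 0), (2, 0)]),
    (2, GenF.stat [0, 1] 2 0 [(0, 0), (0, 1), (1, 0)]),
    (-1, GenF.stat [0, 1] 2 0 [(0, 0), (0, 0), (0, 1)]),
    (2, GenF.stat [0, 1] 2 0 [(0, 0), (1, 0), (1, 1)]),
    (-1, GenF.stat [0, 1] 2 0 [(1, 0), (1, 0), (1, 1)]),
    (-1, GenF.stat [0, 1] 2 0 [(0, 1), (1, 0), (1, 0)])])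

/-- The certificate of one pattern. -/
def certE25 : List (Fin 6) × ℤ × List (ℤ × GenF) :=
  ([0, 1, 0, 2, 1], 12, [
    (24, GenF.prod [1, 2] [0, 0, 1]),
    (-24, GenF.prod [1] [0, 0, 1, 2]),
    (12, GenF.prod [0, 1] [0, 2, 1]),
    (-24, GenF.prod [1] [0, 2, 0, 1]),
    (-24, GenF.prod [1] [0, 0, 2, 1]),
    (-24, GenF.prod [1] [2, 0, 0, 1]),
    (24, GenF.prod [0] [2, 0, 1, 1]),
    (12, GenF.prod [0] [2, 1, 0, 1]),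
    (2, GenF.stat [0, 1] 2 0 [(0, 0), (1, 0), (1, 1)]),
    (-18, GenF.stat [1, 2] 0 0 [(1, 0), (1, 0), (2, 1)]),
    (-6, GenF.stat [1, 2] 0 0 [(1, 0), (1, 0), (1, 1)]),
    (24, GenF.prod [1] [0, 1, 1, 2]),
    (24, GenF.prod [1] [0, 1, 2, 1]),
    (-24, GenF.prod [1, 2] [0, 1, 1]),
    (24, GenF.prod [1] [2, 0, 1, 1]),
    (24, GenF.prod [1] [0, 2, 1, 1]),
    (12, GenF.stat [1, 2] 0 0 [(1, 0), (2, 0), (2, 1)]),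
    (12, GenF.stat [1, 2] 0 0 [(1, 0), (1, 1), (2, 0)]),
    (-6, GenF.stat [1, 2] 0 0 [(2, 0), (2, 0), (2, 1)]),
    (-6, GenF.stat [1, 2] 0 0 [(1, 1), (2, 0), (2, 0)]),
    (-12, GenF.stat [0, 1] 2 0 [(0, 2), (1, 0)]),
    (-3, GenF.stat [0, 1] 2 0 [(0, 0), (0, 0), (1, 1)]),
    (14, GenF.stat [0, 1] 2 0 [(0, 0), (0, 1), (1, 0)]),
    (-1, GenF.stat [0, 1] 2 0 [(1, 0), (1, 0), (1, 1)]),
    (-1, GenF.stat [0, 1] 2 0 [(0, 1), (1, 0), (1, 0)]),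
    (-3, GenF.stat [0, 1] 2 0 [(0, 0), (0, 0), (0, 1)])])

/-- The certificate of one pattern. -/
def certE26 : List (Fin 6) × ℤ × List (ℤ × GenF) :=
  ([0, 1, 0, 2, 2], 4, [
    (4, GenF.prod [0] [1, 0, 2, 2]),
    (-2, GenF.stat [0, 2] 1 0 [(0, 0), (0, 2)]),
    (-2, GenF.prod [0] [0, 1, 0, 2]),
    (-2, GenF.prod [0] [2, 0, 1, 0]),
    (4, GenF.prod [0, 1] [0, 0, 2]),
    (3, GenF.stat [0, 1] 2 0 [(0, 0), (0, 0), (1, 1)]),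
    (3, GenF.stat [0, 2] 1 0 [(0, 0), (0, 0), (0, 1)]),
    (3, GenF.stat [0, 2] 1 0 [(0, 0), (0, 0), (2, 1)]),
    (-4, GenF.prod [0] [0, 0, 1, 2]),
    (-4, GenF.prod [0] [0, 0, 2, 1]),
    (2, GenF.prod [0] [0, 1, 2, 0]),
    (2, GenF.prod [0] [0, 2, 1, 0]),
    (-4, GenF.prod [0] [1, 2, 0, 0]),
    (-4, GenF.prod [0] [2, 1, 0, 0]),
    (-2, GenF.stat [0, 2] 1 0 [(0, 0), (2, 0), (2, 1)]),
    (-2, GenF.stat [0, 2] 1 0 [(0, 0), (0, 1), (2, 0)]),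
    (1, GenF.stat [0, 2] 1 0 [(2, 0), (2, 0), (2, 1)]),
    (1, GenF.stat [0, 2] 1 0 [(0, 1), (2, 0), (2, 0)]),
    (-2, GenF.stat [0, 1] 2 0 [(0, 0), (0, 1), (1, 0)]),
    (1, GenF.stat [0, 1] 2 0 [(0, 0), (0, 0), (0, 1)]),
    (-2, GenF.stat [0, 1] 2 0 [(0, 0), (1, 0), (1, 1)]),
    (1, GenF.stat [0, 1] 2 0 [(1, 0), (1, 0), (1, 1)]),
    (1, GenF.stat [0, 1] 2 0 [(0, 1), (1, 0), (1, 0)])])

/-- The certificate of one pattern. -/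
def certE27 : List (Fin 6) × ℤ × List (ℤ × GenF) :=
  ([0, 1, 1, 0, 2], 4, [
    (4, GenF.prod [2] [0, 1, 0, 1]),
    (-4, GenF.prod [0] [2, 0, 1, 1]),
    (8, GenF.prod [2] [0, 0, 1, 1]),
    (-4, GenF.prod [0, 1] [0, 2, 1]),
    (-4, GenF.prod [0, 1] [0, 1, 2]),
    (4, GenF.prod [0, 2] [0, 1, 1]),
    (2, GenF.stat [0, 1] 2 0 [(0, 0), (0, 2)]),
    (-1, GenF.stat [0, 1] 2 0 [(0, 0), (0, 0), (0, 1)]),
    (-1, GenF.stat [0, 2] 1 0 [(0, 0), (0, 0), (0, 1)]),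
    (2, GenF.prod [0] [0, 2, 0, 1]),
    (2, GenF.prod [0] [1, 0, 2, 0]),
    (-4, GenF.prod [0, 2] [0, 0, 1]),
    (-3, GenF.stat [0, 1] 2 0 [(0, 0), (0, 0), (1, 1)]),
    (-3, GenF.stat [0, 2] 1 0 [(0, 0), (0, 0), (2, 1)]),
    (4, GenF.prod [0] [0, 0, 1, 2]),
    (4, GenF.prod [0] [0, 0, 2, 1]),
    (-2, GenF.prod [0] [0, 1, 2, 0]),
    (-2, GenF.prod [0] [0, 2, 1, 0]),
    (4, GenF.prod [0] [1, 2, 0, 0]),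
    (4, GenF.prod [0] [2, 1, 0, 0]),
    (2, GenF.stat [0, 2] 1 0 [(0, 0), (2, 0), (2, 1)]),
    (2, GenF.stat [0, 2] 1 0 [(0, 0), (0, 1), (2, 0)]),
    (-1, GenF.stat [0, 2] 1 0 [(2, 0), (2, 0), (2, 1)]),
    (-1, GenF.stat [0, 2] 1 0 [(0, 1), (2, 0), (2, 0)]),
    (2, GenF.stat [0, 1] 2 0 [(0, 0), (0, 1), (1, 0)]),
    (2, GenF.stat [0, 1] 2 0 [(0, 0), (1, 0), (1, 1)]),
    (-2, GenF.stat [0, 1] 2 0 [(0, 1), (0, 1)]),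
    (-1, GenF.stat [0, 1] 2 0 [(1, 0), (1, 0), (1, 1)]),
    (-1, GenF.stat [0, 1] 2 0 [(0, 1), (1, 0), (1, 0)])])

/-- The certificate of one pattern. -/
def certE28 : List (Fin 6) × ℤ × List (ℤ × GenF) :=
  ([0, 1, 1, 1, 2], 6, [
    (-6, GenF.prod [1] [0, 1, 1, 2]),
    (6, GenF.prod [0, 1] [1, 1, 2]),
    (-3, GenF.prod [1] [1, 0, 1, 2]),
    (-3, GenF.prod [1] [1, 2, 0, 1]),
    (-3, GenF.prod [1] [1, 0, 2, 1]),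
    (6, GenF.prod [1] [2, 0, 1, 1]),
    (3, GenF.prod [1] [2, 1, 0, 1]),
    (6, GenF.prod [1] [0, 2, 1, 1]),
    (-6, GenF.prod [0] [2, 1, 1, 1]),
    (-3, GenF.stat [0, 1] 2 0 [(0, 1), (1, 0), (1, 0)]),
    (2, GenF.stat [0, 1] 2 0 [(0, 0), (0, 1), (1, 0)]),
    (-1, GenF.stat [0, 1] 2 0 [(0, 0), (0, 0), (0, 1)]),
    (-1, GenF.stat [0, 1] 2 0 [(0, 0), (0, 0), (1, 1)]),
    (2, GenF.stat [0, 1] 2 0 [(0, 0), (1, 0), (1, 1)]),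
    (-3, GenF.stat [1, 2] 0 0 [(1, 0), (1, 0), (2, 1)]),
    (2, GenF.stat [1, 2] 0 0 [(1, 0), (2, 0), (2, 1)]),
    (2, GenF.stat [1, 2] 0 0 [(1, 0), (1, 1), (2, 0)]),
    (-1, GenF.stat [1, 2] 0 0 [(2, 0), (2, 0), (2, 1)]),
    (-1, GenF.stat [1, 2] 0 0 [(1, 1), (2, 0), (2, 0)])])

/-- The certificate of one pattern. -/
def certE29 : List (Fin 6) × ℤ × List (ℤ × GenF) :=
  ([0, 1, 1, 2, 0], 4, [
    (4, GenF.prod [0] [0, 1, 1, 2]),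
    (-4, GenF.prod [0] [0, 2, 1, 1]),
    (4, GenF.prod [0] [2, 1, 1, 0]),
    (4, GenF.prod [0, 1] [0, 2, 1]),
    (-4, GenF.prod [0, 2] [0, 1, 1]),
    (-2, GenF.stat [0, 1] 2 0 [(0, 0), (0, 2)]),
    (2, GenF.stat [0, 1] 2 0 [(0, 0), (0, 0), (0, 1)]),
    (1, GenF.stat [0, 2] 1 0 [(0, 0), (0, 0), (0, 1)]),
    (-2, GenF.prod [0] [0, 2, 0, 1]),
    (-2, GenF.prod [0] [1, 0, 2, 0]),
    (4, GenF.prod [0, 2] [0, 0, 1]),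
    (2, GenF.stat [0, 1] 2 0 [(0, 0), (0, 0), (1, 1)]),
    (3, GenF.stat [0, 2] 1 0 [(0, 0), (0, 0), (2, 1)]),
    (-4, GenF.prod [0] [0, 0, 1, 2]),
    (-4, GenF.prod [0] [0, 0, 2, 1]),
    (2, GenF.prod [0] [0, 1, 2, 0]),
    (2, GenF.prod [0] [0, 2, 1, 0]),
    (-4, GenF.prod [0] [1, 2, 0, 0]),
    (-4, GenF.prod [0] [2, 1, 0, 0]),
    (-2, GenF.stat [0, 2] 1 0 [(0, 0), (2, 0), (2, 1)]),
    (-2, GenF.stat [0, 2] 1 0 [(0, 0), (0, 1), (2, 0)]),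
    (1, GenF.stat [0, 2] 1 0 [(2, 0), (2, 0), (2, 1)]),
    (1, GenF.stat [0, 2] 1 0 [(0, 1), (2, 0), (2, 0)]),
    (-4, GenF.stat [0, 1] 2 0 [(0, 0), (1, 0), (1, 1)]),
    (2, GenF.stat [0, 1] 2 0 [(1, 0), (1, 0), (1, 1)]),
    (2, GenF.stat [0, 1] 2 0 [(0, 1), (1, 0), (1, 0)])])

/-- The certificate of one pattern. -/
def certE30 : List (Fin 6) × ℤ × List (ℤ × GenF) :=
  ([0, 1, 1, 2, 1], 4, [
    (-8, GenF.prod [0, 1] [1, 1, 2]),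
    (8, GenF.prod [1] [0, 1, 1, 2]),
    (4, GenF.prod [1] [1, 0, 1, 2]),
    (4, GenF.prod [1] [1, 2, 0, 1]),
    (4, GenF.prod [1] [1, 0, 2, 1]),
    (-8, GenF.prod [1] [2, 0, 1, 1]),
    (-4, GenF.prod [1] [2, 1, 0, 1]),
    (-8, GenF.prod [1] [0, 2, 1, 1]),
    (12, GenF.prod [0] [2, 1, 1, 1]),
    (-1, GenF.stat [0, 1] 2 0 [(1, 0), (1, 0), (1, 1)]),
    (1, GenF.stat [1, 2] 0 0 [(1, 0), (1, 0), (1, 1)]),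
    (3, GenF.stat [0, 1] 2 0 [(0, 1), (1, 0), (1, 0)]),
    (-2, GenF.stat [0, 1] 2 0 [(0, 0), (0, 1), (1, 0)]),
    (1, GenF.stat [0, 1] 2 0 [(0, 0), (0, 0), (0, 1)]),
    (1, GenF.stat [0, 1] 2 0 [(0, 0), (0, 0), (1, 1)]),
    (-2, GenF.stat [0, 1] 2 0 [(0, 0), (1, 0), (1, 1)]),
    (3, GenF.stat [1, 2] 0 0 [(1, 0), (1, 0), (2, 1)]),
    (-2, GenF.stat [1, 2] 0 0 [(1, 0), (2, 0), (2, 1)]),
    (-2, GenF.stat [1, 2] 0 0 [(1, 0), (1, 1), (2, 0)]),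
    (1, GenF.stat [1, 2] 0 0 [(2, 0), (2, 0), (2, 1)]),
    (1, GenF.stat [1, 2] 0 0 [(1, 1), (2, 0), (2, 0)])])

/-- The certificate of one pattern. -/
def certE31 : List (Fin 6) × ℤ × List (ℤ × GenF) :=
  ([0, 1, 1, 2, 2], 12, [
    (-2, GenF.stat [1, 2] 0 0 [(1, 3)]),
    (12, GenF.prod [0] [1, 2, 2, 2]),
    (-12, GenF.prod [1] [0, 1, 1, 2]),
    (-6, GenF.prod [1] [1, 0, 1, 2]),
    (-6, GenF.prod [1] [1, 0, 2, 1]),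
    (12, GenF.prod [1] [0, 2, 1, 1]),
    (-12, GenF.prod [0] [2, 1, 1, 1]),
    (-6, GenF.stat [1, 2] 0 0 [(1, 0), (1, 0), (1, 1)]),
    (12, GenF.prod [1] [2, 0, 1, 1]),
    (-6, GenF.stat [0, 1] 2 0 [(0, 1), (1, 0), (1, 0)]),
    (4, GenF.stat [0, 1] 2 0 [(0, 0), (0, 1), (1, 0)]),
    (-2, GenF.stat [0, 1] 2 0 [(0, 0), (0, 0), (0, 1)]),
    (-2, GenF.stat [0, 1] 2 0 [(0, 0), (0, 0), (1, 1)]),
    (4, GenF.stat [0, 1] 2 0 [(0, 0), (1, 0), (1, 1)]),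
    (-6, GenF.stat [1, 2] 0 0 [(1, 0), (1, 0), (2, 1)]),
    (4, GenF.stat [1, 2] 0 0 [(1, 0), (2, 0), (2, 1)]),
    (4, GenF.stat [1, 2] 0 0 [(1, 0), (1, 1), (2, 0)]),
    (-2, GenF.stat [1, 2] 0 0 [(2, 0), (2, 0), (2, 1)]),
    (-2, GenF.stat [1, 2] 0 0 [(1, 1), (2, 0), (2, 0)]),
    (6, GenF.stat [1, 2] 0 0 [(1, 0), (1, 2)]),
    (12, GenF.prod [0, 1] [1, 1, 2]),
    (-6, GenF.prod [1] [1, 2, 0, 1]),
    (6, GenF.prod [1] [2, 1, 0, 1]),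
    (-3, GenF.stat [0, 2] 1 0 [(2, 0), (2, 0), (2, 1)]),
    (-3, GenF.stat [0, 2] 1 0 [(0, 1), (2, 0), (2, 0)]),
    (2, GenF.stat [0, 2] 1 0 [(0, 0), (2, 0), (2, 1)]),
    (2, GenF.stat [0, 2] 1 0 [(0, 0), (0, 1), (2, 0)]),
    (-1, GenF.stat [0, 2] 1 0 [(0, 0), (0, 0), (2, 1)]),
    (-1, GenF.stat [0, 2] 1 0 [(0, 0), (0, 0), (0, 1)])])

/-- The certificate of one pattern. -/
def certE32 : List (Fin 6) × ℤ × List (ℤ × GenF) :=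
  ([0, 1, 2, 0, 0], 4, [
    (4, GenF.prod [0, 1] [0, 0, 2]),
    (-2, GenF.prod [0] [0, 1, 0, 2]),
    (-2, GenF.prod [0] [2, 0, 1, 0]),
    (-4, GenF.prod [0] [0, 0, 1, 2]),
    (-4, GenF.prod [0] [0, 0, 2, 1]),
    (2, GenF.prod [0] [0, 1, 2, 0]),
    (2, GenF.prod [0] [0, 2, 1, 0]),
    (-4, GenF.prod [0] [2, 1, 0, 0]),
    (3, GenF.stat [0, 1] 2 0 [(0, 0), (0, 0), (1, 1)]),
    (-2, GenF.stat [0, 1] 2 0 [(0, 0), (0, 1), (1, 0)]),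
    (1, GenF.stat [0, 1] 2 0 [(0, 0), (0, 0), (0, 1)]),
    (-2, GenF.stat [0, 1] 2 0 [(0, 0), (1, 0), (1, 1)]),
    (1, GenF.stat [0, 1] 2 0 [(1, 0), (1, 0), (1, 1)]),
    (1, GenF.stat [0, 1] 2 0 [(0, 1), (1, 0), (1, 0)])])

/-- The certificate of one pattern. -/
def certE33 : List (Fin 6) × ℤ × List (ℤ × GenF) :=
  ([0, 1, 2, 0, 1], 4, [
    (-4, GenF.prod [0, 1] [0, 2, 1]),
    (-4, GenF.prod [0, 1] [0, 1, 2]),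
    (8, GenF.prod [2] [0, 1, 0, 1]),
    (16, GenF.prod [2] [0, 0, 1, 1]),
    (-8, GenF.prod [0] [2, 0, 1, 1]),
    (-4, GenF.prod [0] [2, 1, 0, 1]),
    (2, GenF.stat [0, 1] 2 0 [(0, 0), (1, 0), (1, 1)]),
    (-4, GenF.stat [0, 1] 2 0 [(0, 1), (0, 1)]),
    (1, GenF.stat [0, 1] 2 0 [(0, 0), (0, 0), (0, 1)]),
    (6, GenF.stat [0, 1] 2 0 [(0, 0), (0, 1), (1, 0)]),
    (-3, GenF.stat [0, 1] 2 0 [(0, 0), (0, 0), (1, 1)]),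
    (-1, GenF.stat [0, 1] 2 0 [(1, 0), (1, 0), (1, 1)]),
    (-1, GenF.stat [0, 1] 2 0 [(0, 1), (1, 0), (1, 0)])])

/-- The certificate of one pattern. -/
def certE34 : List (Fin 6) × ℤ × List (ℤ × GenF) :=
  ([0, 1, 2, 0, 2], 4, [
    (4, GenF.prod [0] [1, 2, 0, 2]),
    (-2, GenF.stat [0, 2] 1 0 [(0, 0), (0, 1), (2, 0)]),
    (-3, GenF.stat [0, 2] 1 0 [(0, 0), (0, 0), (2, 1)]),
    (-3, GenF.stat [0, 2] 1 0 [(0, 0), (0, 0), (0, 1)]),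
    (4, GenF.stat [0, 2] 1 0 [(0, 0), (0, 2)]),
    (4, GenF.prod [0] [0, 1, 0, 2]),
    (4, GenF.prod [0] [2, 0, 1, 0]),
    (-8, GenF.prod [0, 1] [0, 0, 2]),
    (-6, GenF.stat [0, 1] 2 0 [(0, 0), (0, 0), (1, 1)]),
    (8, GenF.prod [0] [0, 0, 1, 2]),
    (8, GenF.prod [0] [0, 0, 2, 1]),
    (-4, GenF.prod [0] [0, 1, 2, 0]),
    (-4, GenF.prod [0] [0, 2, 1, 0]),
    (8, GenF.prod [0] [1, 2, 0, 0]),
    (8, GenF.prod [0] [2, 1, 0, 0]),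
    (2, GenF.stat [0, 2] 1 0 [(0, 0), (2, 0), (2, 1)]),
    (-1, GenF.stat [0, 2] 1 0 [(2, 0), (2, 0), (2, 1)]),
    (-1, GenF.stat [0, 2] 1 0 [(0, 1), (2, 0), (2, 0)]),
    (4, GenF.stat [0, 1] 2 0 [(0, 0), (0, 1), (1, 0)]),
    (-2, GenF.stat [0, 1] 2 0 [(0, 0), (0, 0), (0, 1)]),
    (4, GenF.stat [0, 1] 2 0 [(0, 0), (1, 0), (1, 1)]),
    (-2, GenF.stat [0, 1] 2 0 [(1, 0), (1, 0), (1, 1)]),
    (-2, GenF.stat [0, 1] 2 0 [(0, 1), (1, 0), (1, 0)])])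

/-- The certificate of one pattern. -/
def certE35 : List (Fin 6) × ℤ × List (ℤ × GenF) :=
  ([0, 1, 2, 1, 0], 2, [
    (2, GenF.prod [0, 1] [0, 1, 2]),
    (-4, GenF.prod [2] [0, 1, 0, 1]),
    (4, GenF.prod [0] [2, 0, 1, 1]),
    (-8, GenF.prod [2] [0, 0, 1, 1]),
    (2, GenF.prod [0] [0, 1, 2, 1]),
    (4, GenF.prod [0] [0, 2, 1, 1]),
    (-4, GenF.prod [0] [2, 1, 1, 0]),
    (2, GenF.stat [0, 1] 2 0 [(0, 1), (0, 1)]),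
    (-1, GenF.stat [0, 1] 2 0 [(0, 0), (0, 0), (0, 1)]),
    (-2, GenF.stat [0, 1] 2 0 [(0, 0), (0, 1), (1, 0)]),
    (1, GenF.stat [0, 1] 2 0 [(0, 0), (0, 0), (1, 1)]),
    (2, GenF.stat [0, 1] 2 0 [(0, 0), (1, 0), (1, 1)]),
    (-1, GenF.stat [0, 1] 2 0 [(1, 0), (1, 0), (1, 1)]),
    (-1, GenF.stat [0, 1] 2 0 [(0, 1), (1, 0), (1, 0)])])

/-- The certificate of one pattern. -/
def certE36 : List (Fin 6) × ℤ × List (ℤ × GenF) :=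
  ([0, 1, 2, 1, 1], 2, [
    (2, GenF.prod [0, 1] [1, 1, 2]),
    (-2, GenF.prod [1] [0, 1, 1, 2]),
    (-1, GenF.prod [1] [1, 0, 1, 2]),
    (-1, GenF.prod [1] [1, 2, 0, 1]),
    (-1, GenF.prod [1] [1, 0, 2, 1]),
    (2, GenF.prod [1] [2, 0, 1, 1]),
    (1, GenF.prod [1] [2, 1, 0, 1]),
    (2, GenF.prod [1] [0, 2, 1, 1]),
    (-6, GenF.prod [0] [2, 1, 1, 1]),
    (1, GenF.stat [0, 1] 2 0 [(1, 0), (1, 0), (1, 1)])])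

/-- The certificate of one pattern. -/
def certE37 : List (Fin 6) × ℤ × List (ℤ × GenF) :=
  ([0, 1, 2, 1, 2], 6, [
    (3, GenF.stat [1, 2] 0 0 [(1, 1), (1, 1)]),
    (3, GenF.stat [1, 2] 0 0 [(1, 0), (1, 0), (1, 1)]),
    (2, GenF.stat [1, 2] 0 0 [(1, 3)]),
    (-12, GenF.prod [0] [1, 2, 2, 2]),
    (12, GenF.prod [1] [0, 1, 1, 2]),
    (6, GenF.prod [1] [1, 0, 1, 2]),
    (6, GenF.prod [1] [1, 0, 2, 1]),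
    (-12, GenF.prod [1] [0, 2, 1, 1]),
    (12, GenF.prod [0] [2, 1, 1, 1]),
    (-12, GenF.prod [1] [2, 0, 1, 1]),
    (6, GenF.stat [0, 1] 2 0 [(0, 1), (1, 0), (1, 0)]),
    (-4, GenF.stat [0, 1] 2 0 [(0, 0), (0, 1), (1, 0)]),
    (2, GenF.stat [0, 1] 2 0 [(0, 0), (0, 0), (0, 1)]),
    (2, GenF.stat [0, 1] 2 0 [(0, 0), (0, 0), (1, 1)]),
    (-4, GenF.stat [0, 1] 2 0 [(0, 0), (1, 0), (1, 1)]),
    (6, GenF.stat [1, 2] 0 0 [(1, 0), (1, 0), (2, 1)]),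
    (-4, GenF.stat [1, 2] 0 0 [(1, 0), (2, 0), (2, 1)]),
    (-4, GenF.stat [1, 2] 0 0 [(1, 0), (1, 1), (2, 0)]),
    (2, GenF.stat [1, 2] 0 0 [(2, 0), (2, 0), (2, 1)]),
    (2, GenF.stat [1, 2] 0 0 [(1, 1), (2, 0), (2, 0)]),
    (-6, GenF.stat [1, 2] 0 0 [(1, 0), (1, 2)]),
    (-12, GenF.prod [0, 1] [1, 1, 2]),
    (6, GenF.prod [1] [1, 2, 0, 1]),
    (-6, GenF.prod [1] [2, 1, 0, 1]),
    (3, GenF.stat [0, 2] 1 0 [(2, 0), (2, 0), (2, 1)]),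
    (3, GenF.stat [0, 2] 1 0 [(0, 1), (2, 0), (2, 0)]),
    (-2, GenF.stat [0, 2] 1 0 [(0, 0), (2, 0), (2, 1)]),
    (-2, GenF.stat [0, 2] 1 0 [(0, 0), (0, 1), (2, 0)]),
    (1, GenF.stat [0, 2] 1 0 [(0, 0), (0, 0), (2, 1)]),
    (1, GenF.stat [0, 2] 1 0 [(0, 0), (0, 0), (0, 1)])])

/-- The certificate of one pattern. -/
def certE38 : List (Fin 6) × ℤ × List (ℤ × GenF) :=
  ([0, 1, 2, 2, 0], 4, [
    (4, GenF.prod [0] [1, 2, 2, 0]),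
    (2, GenF.stat [0, 2] 1 0 [(0, 0), (0, 0), (2, 1)]),
    (2, GenF.stat [0, 2] 1 0 [(0, 0), (0, 0), (0, 1)]),
    (-2, GenF.stat [0, 2] 1 0 [(0, 0), (0, 2)]),
    (-2, GenF.prod [0] [0, 1, 0, 2]),
    (-2, GenF.prod [0] [2, 0, 1, 0]),
    (4, GenF.prod [0, 1] [0, 0, 2]),
    (3, GenF.stat [0, 1] 2 0 [(0, 0), (0, 0), (1, 1)]),
    (-4, GenF.prod [0] [0, 0, 1, 2]),
    (-4, GenF.prod [0] [0, 0, 2, 1]),
    (2, GenF.prod [0] [0, 1, 2, 0]),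
    (2, GenF.prod [0] [0, 2, 1, 0]),
    (-4, GenF.prod [0] [1, 2, 0, 0]),
    (-4, GenF.prod [0] [2, 1, 0, 0]),
    (-4, GenF.stat [0, 2] 1 0 [(0, 0), (2, 0), (2, 1)]),
    (2, GenF.stat [0, 2] 1 0 [(2, 0), (2, 0), (2, 1)]),
    (2, GenF.stat [0, 2] 1 0 [(0, 1), (2, 0), (2, 0)]),
    (-2, GenF.stat [0, 1] 2 0 [(0, 0), (0, 1), (1, 0)]),
    (1, GenF.stat [0, 1] 2 0 [(0, 0), (0, 0), (0, 1)]),
    (-2, GenF.stat [0, 1] 2 0 [(0, 0), (1, 0), (1, 1)]),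
    (1, GenF.stat [0, 1] 2 0 [(1, 0), (1, 0), (1, 1)]),
    (1, GenF.stat [0, 1] 2 0 [(0, 1), (1, 0), (1, 0)])])

/-- The certificate of one pattern. -/
def certE39 : List (Fin 6) × ℤ × List (ℤ × GenF) :=
  ([0, 1, 2, 2, 1], 4, [
    (-2, GenF.stat [1, 2] 0 0 [(1, 1), (1, 1)]),
    (-1, GenF.stat [1, 2] 0 0 [(1, 0), (1, 0), (1, 1)]),
    (2, GenF.stat [1, 2] 0 0 [(1, 0), (1, 2)]),
    (-4, GenF.prod [1] [0, 1, 1, 2]),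
    (4, GenF.prod [0, 1] [1, 1, 2]),
    (-2, GenF.prod [1] [1, 0, 1, 2]),
    (-2, GenF.prod [1] [1, 2, 0, 1]),
    (-2, GenF.prod [1] [1, 0, 2, 1]),
    (4, GenF.prod [1] [2, 0, 1, 1]),
    (2, GenF.prod [1] [2, 1, 0, 1]),
    (4, GenF.prod [1] [0, 2, 1, 1]),
    (-1, GenF.stat [0, 1] 2 0 [(1, 0), (1, 0), (1, 1)]),
    (-3, GenF.stat [0, 1] 2 0 [(0, 1), (1, 0), (1, 0)]),
    (2, GenF.stat [0, 1] 2 0 [(0, 0), (0, 1), (1, 0)]),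
    (-1, GenF.stat [0, 1] 2 0 [(0, 0), (0, 0), (0, 1)]),
    (-1, GenF.stat [0, 1] 2 0 [(0, 0), (0, 0), (1, 1)]),
    (2, GenF.stat [0, 1] 2 0 [(0, 0), (1, 0), (1, 1)]),
    (-3, GenF.stat [1, 2] 0 0 [(1, 0), (1, 0), (2, 1)]),
    (2, GenF.stat [1, 2] 0 0 [(1, 0), (2, 0), (2, 1)]),
    (2, GenF.stat [1, 2] 0 0 [(1, 0), (1, 1), (2, 0)]),
    (-1, GenF.stat [1, 2] 0 0 [(2, 0), (2, 0), (2, 1)]),
    (-1, GenF.stat [1, 2] 0 0 [(1, 1), (2, 0), (2, 0)])])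

/-- The certificate of one pattern. -/
def certE40 : List (Fin 6) × ℤ × List (ℤ × GenF) :=
  ([0, 1, 2, 2, 2], 12, [
    (12, GenF.prod [0] [1, 2, 2, 2]),
    (-3, GenF.stat [0, 2] 1 0 [(2, 0), (2, 0), (2, 1)]),
    (-3, GenF.stat [0, 2] 1 0 [(0, 1), (2, 0), (2, 0)]),
    (2, GenF.stat [0, 2] 1 0 [(0, 0), (2, 0), (2, 1)]),
    (2, GenF.stat [0, 2] 1 0 [(0, 0), (0, 1), (2, 0)]),
    (-1, GenF.stat [0, 2] 1 0 [(0, 0), (0, 0), (2, 1)]),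
    (-1, GenF.stat [0, 2] 1 0 [(0, 0), (0, 0), (0, 1)])])

/-- The certificate of one pattern. -/
def certE41 : List (Fin 6) × ℤ × List (ℤ × GenF) :=
  ([0, 0, 1, 2, 3], 2, [
    (1, GenF.prod [0] [0, 1, 2, 3]),
    (-1, GenF.prod [0] [1, 0, 2, 3]),
    (-1, GenF.prod [0] [1, 2, 0, 3]),
    (-1, GenF.prod [0] [1, 2, 3, 0]),
    (1, GenF.stat [0, 2, 3] 1 0 [(0, 0), (0, 0), (2, 1)])])

/-- The certificate of one pattern. -/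
def certE42 : List (Fin 6) × ℤ × List (ℤ × GenF) :=
  ([0, 1, 0, 2, 3], 1, [
    (1, GenF.prod [0] [1, 0, 2, 3]),
    (-1, GenF.prod [0] [0, 2, 3, 1]),
    (1, GenF.prod [0] [2, 3, 1, 0]),
    (1, GenF.prod [0, 1] [0, 2, 3]),
    (1, GenF.stat [0, 1, 3] 2 0 [(0, 0), (0, 1), (3, 0)]),
    (-1, GenF.stat [0, 1, 3] 2 0 [(0, 0), (0, 0), (3, 1)]),
    (-1, GenF.stat [0, 1, 3] 2 0 [(0, 0), (0, 0), (1, 1)]),
    (-1, GenF.prod [0] [0, 2, 1, 3]),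
    (1, GenF.prod [0] [2, 1, 0, 3]),
    (1, GenF.prod [0] [2, 1, 3, 0]),
    (-1, GenF.stat [0, 2, 3] 1 0 [(0, 0), (0, 0), (2, 1)]),
    (-1, GenF.prod [0] [0, 1, 2, 3]),
    (1, GenF.prod [0] [1, 2, 0, 3]),
    (1, GenF.prod [0] [1, 2, 3, 0])])

/-- The certificate of one pattern. -/
def certE43 : List (Fin 6) × ℤ × List (ℤ × GenF) :=
  ([0, 1, 1, 2, 3], 6, [
    (-6, GenF.prod [1] [0, 1, 2, 3]),
    (-6, GenF.prod [1] [0, 2, 1, 3]),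
    (6, GenF.prod [0] [2, 1, 1, 3]),
    (6, GenF.prod [0] [2, 1, 3, 1]),
    (-6, GenF.prod [1] [0, 2, 3, 1]),
    (6, GenF.prod [0] [2, 3, 1, 1]),
    (6, GenF.prod [0, 1] [1, 2, 3]),
    (-6, GenF.prod [1] [2, 0, 1, 3]),
    (-6, GenF.prod [1] [2, 0, 3, 1]),
    (-6, GenF.prod [1] [2, 3, 0, 1]),
    (-2, GenF.stat [0, 1, 3] 2 0 [(0, 0), (0, 0), (3, 1)]),
    (-2, GenF.stat [0, 1, 3] 2 0 [(0, 0), (0, 0), (1, 1)]),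
    (3, GenF.stat [1, 2, 3] 0 0 [(1, 0), (1, 0), (2, 1)]),
    (4, GenF.stat [0, 1, 3] 2 0 [(0, 0), (1, 0), (3, 1)]),
    (4, GenF.stat [0, 1, 3] 2 0 [(0, 0), (0, 1), (1, 0)]),
    (4, GenF.stat [0, 1, 3] 2 0 [(0, 0), (1, 0), (1, 1)]),
    (-2, GenF.stat [0, 1, 3] 2 0 [(0, 0), (3, 0), (3, 1)]),
    (-2, GenF.stat [0, 1, 3] 2 0 [(0, 0), (1, 1), (3, 0)]),
    (-2, GenF.stat [0, 1, 3] 2 0 [(0, 0), (0, 1), (3, 0)]),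
    (-6, GenF.stat [0, 1, 3] 2 0 [(1, 0), (1, 1), (3, 0)])])

/-- The certificate of one pattern. -/
def certE44 : List (Fin 6) × ℤ × List (ℤ × GenF) :=
  ([0, 1, 2, 0, 3], 1, [
    (-1, GenF.prod [0, 1] [0, 3, 2]),
    (-1, GenF.prod [0, 1] [0, 2, 3]),
    (1, GenF.prod [0] [0, 1, 2, 3]),
    (1, GenF.prod [0] [0, 2, 1, 3]),
    (1, GenF.prod [0] [0, 2, 3, 1]),
    (-1, GenF.prod [0] [1, 2, 3, 0]),
    (-1, GenF.prod [0] [2, 1, 0, 3]),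
    (-1, GenF.prod [0] [2, 1, 3, 0]),
    (-1, GenF.prod [0] [2, 3, 1, 0]),
    (1, GenF.prod [0] [0, 3, 1, 2]),
    (-1, GenF.prod [0] [3, 1, 0, 2]),
    (-1, GenF.prod [0] [3, 1, 2, 0]),
    (-1, GenF.stat [0, 1, 2] 3 0 [(0, 0), (0, 1), (2, 0)]),
    (1, GenF.stat [0, 1, 2] 3 0 [(0, 0), (0, 0), (1, 1)]),
    (-1, GenF.stat [0, 2, 3] 1 0 [(0, 0), (0, 1), (2, 0)]),
    (1, GenF.stat [0, 2, 3] 1 0 [(0, 0), (0, 0), (3, 1)]),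
    (1, GenF.prod [0] [0, 1, 3, 2]),
    (-1, GenF.prod [0] [1, 3, 0, 2]),
    (-1, GenF.prod [0] [1, 3, 2, 0]),
    (1, GenF.stat [0, 2, 3] 1 0 [(0, 0), (0, 0), (2, 1)]),
    (1, GenF.stat [0, 1, 2] 3 0 [(0, 0), (0, 0), (2, 1)]),
    (1, GenF.stat [0, 1, 3] 2 0 [(0, 0), (0, 0), (3, 1)]),
    (1, GenF.stat [0, 1, 3] 2 0 [(0, 0), (0, 0), (1, 1)]),
    (1, GenF.prod [0] [0, 3, 2, 1]),
    (-1, GenF.prod [0] [3, 2, 1, 0]),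
    (-1, GenF.stat [0, 1, 3] 2 0 [(0, 0), (0, 1), (3, 0)])])

/-- The certificate of one pattern. -/
def certE45 : List (Fin 6) × ℤ × List (ℤ × GenF) :=
  ([0, 1, 2, 1, 3], 3, [
    (3, GenF.prod [1] [0, 2, 1, 3]),
    (3, GenF.prod [1] [0, 3, 1, 2]),
    (-6, GenF.prod [0] [2, 1, 1, 3]),
    (-3, GenF.prod [0] [2, 1, 3, 1]),
    (-3, GenF.prod [0, 1] [1, 3, 2]),
    (3, GenF.prod [1] [0, 1, 3, 2]),
    (-3, GenF.prod [0, 1] [1, 2, 3]),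
    (3, GenF.prod [1] [0, 1, 2, 3]),
    (3, GenF.prod [1] [0, 2, 3, 1]),
    (3, GenF.prod [1] [0, 3, 2, 1]),
    (3, GenF.prod [1] [3, 0, 1, 2]),
    (3, GenF.prod [1] [3, 0, 2, 1]),
    (3, GenF.prod [1] [2, 0, 3, 1]),
    (2, GenF.stat [0, 1, 2] 3 0 [(0, 0), (0, 0), (1, 1)]),
    (2, GenF.stat [0, 1, 2] 3 0 [(0, 0), (0, 0), (2, 1)]),
    (-4, GenF.stat [0, 1, 3] 2 0 [(0, 0), (0, 1), (1, 0)]),
    (2, GenF.stat [0, 1, 3] 2 0 [(0, 0), (0, 0), (3, 1)]),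
    (2, GenF.stat [0, 1, 3] 2 0 [(0, 0), (0, 0), (1, 1)]),
    (-3, GenF.stat [1, 2, 3] 0 0 [(1, 0), (1, 0), (3, 1)]),
    (-3, GenF.stat [1, 2, 3] 0 0 [(1, 0), (1, 0), (2, 1)]),
    (3, GenF.stat [1, 2, 3] 0 0 [(1, 0), (1, 1), (2, 0)]),
    (-1, GenF.stat [0, 1, 3] 2 0 [(0, 0), (1, 0), (1, 1)]),
    (-4, GenF.stat [0, 1, 3] 2 0 [(0, 0), (1, 0), (3, 1)]),
    (3, GenF.prod [1] [2, 0, 1, 3]),
    (3, GenF.prod [1] [2, 3, 0, 1]),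
    (3, GenF.prod [1] [3, 2, 0, 1]),
    (2, GenF.stat [0, 1, 3] 2 0 [(0, 0), (3, 0), (3, 1)]),
    (2, GenF.stat [0, 1, 3] 2 0 [(0, 0), (1, 1), (3, 0)]),
    (2, GenF.stat [0, 1, 3] 2 0 [(0, 0), (0, 1), (3, 0)]),
    (3, GenF.stat [0, 1, 3] 2 0 [(1, 0), (1, 1), (3, 0)]),
    (3, GenF.stat [0, 1, 2] 3 0 [(1, 0), (1, 1), (2, 0)]),
    (-4, GenF.stat [0, 1, 2] 3 0 [(0, 0), (1, 0), (2, 1)]),
    (-4, GenF.stat [0, 1, 2] 3 0 [(0, 0), (0, 1), (1, 0)]),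
    (-4, GenF.stat [0, 1, 2] 3 0 [(0, 0), (1, 0), (1, 1)]),
    (2, GenF.stat [0, 1, 2] 3 0 [(0, 0), (2, 0), (2, 1)]),
    (2, GenF.stat [0, 1, 2] 3 0 [(0, 0), (1, 1), (2, 0)]),
    (2, GenF.stat [0, 1, 2] 3 0 [(0, 0), (0, 1), (2, 0)])])

/-- The certificate of one pattern. -/
def certE46 : List (Fin 6) × ℤ × List (ℤ × GenF) :=
  ([0, 1, 2, 2, 3], 6, [
    (6, GenF.prod [0] [1, 2, 2, 3]),
    (-3, GenF.prod [2] [0, 1, 2, 3]),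
    (3, GenF.prod [2] [0, 1, 3, 2]),
    (-6, GenF.prod [0] [3, 1, 2, 2]),
    (-6, GenF.prod [0] [3, 2, 1, 2]),
    (-6, GenF.prod [0] [3, 2, 2, 1]),
    (6, GenF.prod [0, 1] [2, 2, 3]),
    (-3, GenF.prod [2] [2, 0, 1, 3]),
    (-3, GenF.prod [2] [0, 2, 3, 1]),
    (3, GenF.prod [2] [0, 3, 1, 2]),
    (3, GenF.prod [2] [0, 3, 2, 1]),
    (-3, GenF.prod [2] [0, 2, 1, 3]),
    (-3, GenF.prod [2] [2, 3, 0, 1]),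
    (-3, GenF.prod [2] [2, 0, 3, 1]),
    (3, GenF.prod [2] [3, 0, 1, 2]),
    (3, GenF.prod [2] [3, 2, 0, 1]),
    (3, GenF.prod [2] [3, 0, 2, 1]),
    (-3, GenF.stat [0, 1, 2] 3 0 [(0, 1), (2, 0), (2, 0)]),
    (4, GenF.stat [0, 1, 2] 3 0 [(0, 0), (2, 0), (2, 1)]),
    (4, GenF.stat [0, 1, 2] 3 0 [(0, 0), (1, 1), (2, 0)]),
    (4, GenF.stat [0, 2, 3] 1 0 [(0, 0), (0, 1), (2, 0)]),
    (4, GenF.stat [0, 1, 2] 3 0 [(0, 0), (0, 1), (2, 0)]),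
    (-2, GenF.stat [0, 1, 2] 3 0 [(0, 0), (0, 0), (1, 1)]),
    (-2, GenF.stat [0, 2, 3] 1 0 [(0, 0), (0, 0), (3, 1)]),
    (-2, GenF.stat [0, 2, 3] 1 0 [(0, 0), (0, 0), (2, 1)]),
    (-2, GenF.stat [0, 1, 2] 3 0 [(0, 0), (0, 0), (2, 1)]),
    (-2, GenF.stat [0, 1, 2] 3 0 [(0, 0), (1, 0), (2, 1)]),
    (-2, GenF.stat [0, 1, 2] 3 0 [(0, 0), (0, 1), (1, 0)]),
    (-2, GenF.stat [0, 2, 3] 1 0 [(0, 0), (0, 1), (3, 0)]),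
    (-2, GenF.stat [0, 1, 2] 3 0 [(0, 0), (1, 0), (1, 1)]),
    (4, GenF.stat [0, 2, 3] 1 0 [(0, 0), (2, 0), (3, 1)]),
    (-6, GenF.prod [0] [1, 3, 2, 2]),
    (-2, GenF.stat [0, 2, 3] 1 0 [(0, 0), (2, 0), (2, 1)]),
    (-2, GenF.stat [0, 2, 3] 1 0 [(0, 0), (3, 0), (3, 1)]),
    (-2, GenF.stat [0, 2, 3] 1 0 [(0, 0), (2, 1), (3, 0)])])

/-- The certificate of one pattern. -/
def certE47 : List (Fin 6) × ℤ × List (ℤ × GenF) :=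
  ([0, 1, 2, 3, 0], 1, [
    (1, GenF.prod [0] [1, 2, 3, 0]),
    (1, GenF.prod [0, 1] [0, 3, 2]),
    (-1, GenF.prod [0] [0, 3, 1, 2]),
    (1, GenF.prod [0] [3, 1, 0, 2]),
    (1, GenF.prod [0] [3, 1, 2, 0]),
    (-1, GenF.prod [0] [0, 3, 2, 1]),
    (1, GenF.prod [0] [3, 2, 1, 0]),
    (1, GenF.stat [0, 1, 2] 3 0 [(0, 0), (0, 1), (2, 0)]),
    (-1, GenF.stat [0, 1, 2] 3 0 [(0, 0), (0, 0), (1, 1)]),
    (1, GenF.stat [0, 2, 3] 1 0 [(0, 0), (0, 1), (2, 0)]),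
    (-1, GenF.stat [0, 2, 3] 1 0 [(0, 0), (0, 0), (3, 1)]),
    (-1, GenF.prod [0] [0, 1, 3, 2]),
    (1, GenF.prod [0] [1, 3, 0, 2]),
    (1, GenF.prod [0] [1, 3, 2, 0]),
    (-1, GenF.stat [0, 2, 3] 1 0 [(0, 0), (0, 0), (2, 1)]),
    (-1, GenF.stat [0, 1, 2] 3 0 [(0, 0), (0, 0), (2, 1)])])

/-- The certificate of one pattern. -/
def certE48 : List (Fin 6) × ℤ × List (ℤ × GenF) :=
  ([0, 1, 2, 3, 1], 3, [
    (-3, GenF.prod [1] [0, 1, 3, 2]),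
    (-6, GenF.prod [0] [2, 3, 1, 1]),
    (-3, GenF.prod [1] [0, 3, 1, 2]),
    (-3, GenF.prod [1] [0, 3, 2, 1]),
    (3, GenF.prod [0, 1] [1, 3, 2]),
    (-3, GenF.prod [1] [3, 0, 1, 2]),
    (-3, GenF.prod [1] [3, 0, 2, 1]),
    (-3, GenF.prod [1] [3, 2, 0, 1]),
    (-3, GenF.prod [0] [2, 1, 3, 1]),
    (-2, GenF.stat [0, 1, 2] 3 0 [(0, 0), (0, 0), (1, 1)]),
    (-2, GenF.stat [0, 1, 2] 3 0 [(0, 0), (0, 0), (2, 1)]),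
    (4, GenF.stat [0, 1, 3] 2 0 [(0, 0), (0, 1), (1, 0)]),
    (-2, GenF.stat [0, 1, 3] 2 0 [(0, 0), (0, 0), (3, 1)]),
    (-2, GenF.stat [0, 1, 3] 2 0 [(0, 0), (0, 0), (1, 1)]),
    (3, GenF.stat [1, 2, 3] 0 0 [(1, 0), (1, 0), (3, 1)]),
    (3, GenF.stat [1, 2, 3] 0 0 [(1, 0), (1, 0), (2, 1)]),
    (-3, GenF.stat [1, 2, 3] 0 0 [(1, 0), (1, 1), (2, 0)]),
    (1, GenF.stat [0, 1, 3] 2 0 [(0, 0), (1, 0), (1, 1)]),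
    (4, GenF.stat [0, 1, 3] 2 0 [(0, 0), (1, 0), (3, 1)]),
    (-2, GenF.stat [0, 1, 3] 2 0 [(0, 0), (3, 0), (3, 1)]),
    (-2, GenF.stat [0, 1, 3] 2 0 [(0, 0), (1, 1), (3, 0)]),
    (-2, GenF.stat [0, 1, 3] 2 0 [(0, 0), (0, 1), (3, 0)]),
    (-3, GenF.stat [0, 1, 2] 3 0 [(1, 0), (1, 1), (2, 0)]),
    (4, GenF.stat [0, 1, 2] 3 0 [(0, 0), (1, 0), (2, 1)]),
    (4, GenF.stat [0, 1, 2] 3 0 [(0, 0), (0, 1), (1, 0)]),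
    (4, GenF.stat [0, 1, 2] 3 0 [(0, 0), (1, 0), (1, 1)]),
    (-2, GenF.stat [0, 1, 2] 3 0 [(0, 0), (2, 0), (2, 1)]),
    (-2, GenF.stat [0, 1, 2] 3 0 [(0, 0), (1, 1), (2, 0)]),
    (-2, GenF.stat [0, 1, 2] 3 0 [(0, 0), (0, 1), (2, 0)])])

/-- The certificate of one pattern. -/
def certE49 : List (Fin 6) × ℤ × List (ℤ × GenF) :=
  ([0, 1, 2, 3, 2], 3, [
    (3, GenF.prod [0] [1, 2, 3, 2]),
    (-3, GenF.prod [2] [0, 1, 3, 2]),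
    (6, GenF.prod [0] [3, 1, 2, 2]),
    (6, GenF.prod [0] [3, 2, 1, 2]),
    (6, GenF.prod [0] [3, 2, 2, 1]),
    (-6, GenF.prod [0, 1] [2, 2, 3]),
    (3, GenF.prod [2] [0, 1, 2, 3]),
    (3, GenF.prod [2] [2, 0, 1, 3]),
    (3, GenF.prod [2] [0, 2, 3, 1]),
    (-3, GenF.prod [2] [0, 3, 1, 2]),
    (-3, GenF.prod [2] [0, 3, 2, 1]),
    (3, GenF.prod [2] [0, 2, 1, 3]),
    (3, GenF.prod [2] [2, 3, 0, 1]),
    (3, GenF.prod [2] [2, 0, 3, 1]),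
    (-3, GenF.prod [2] [3, 0, 1, 2]),
    (-3, GenF.prod [2] [3, 2, 0, 1]),
    (-3, GenF.prod [2] [3, 0, 2, 1]),
    (-1, GenF.stat [0, 2, 3] 1 0 [(0, 0), (2, 0), (2, 1)]),
    (3, GenF.stat [0, 1, 2] 3 0 [(0, 1), (2, 0), (2, 0)]),
    (-4, GenF.stat [0, 1, 2] 3 0 [(0, 0), (2, 0), (2, 1)]),
    (-4, GenF.stat [0, 1, 2] 3 0 [(0, 0), (1, 1), (2, 0)]),
    (-4, GenF.stat [0, 2, 3] 1 0 [(0, 0), (0, 1), (2, 0)]),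
    (-4, GenF.stat [0, 1, 2] 3 0 [(0, 0), (0, 1), (2, 0)]),
    (2, GenF.stat [0, 1, 2] 3 0 [(0, 0), (0, 0), (1, 1)]),
    (2, GenF.stat [0, 2, 3] 1 0 [(0, 0), (0, 0), (3, 1)]),
    (2, GenF.stat [0, 2, 3] 1 0 [(0, 0), (0, 0), (2, 1)]),
    (2, GenF.stat [0, 1, 2] 3 0 [(0, 0), (0, 0), (2, 1)]),
    (2, GenF.stat [0, 1, 2] 3 0 [(0, 0), (1, 0), (2, 1)]),
    (2, GenF.stat [0, 1, 2] 3 0 [(0, 0), (0, 1), (1, 0)]),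
    (2, GenF.stat [0, 2, 3] 1 0 [(0, 0), (0, 1), (3, 0)]),
    (2, GenF.stat [0, 1, 2] 3 0 [(0, 0), (1, 0), (1, 1)]),
    (-4, GenF.stat [0, 2, 3] 1 0 [(0, 0), (2, 0), (3, 1)]),
    (6, GenF.prod [0] [1, 3, 2, 2]),
    (2, GenF.stat [0, 2, 3] 1 0 [(0, 0), (3, 0), (3, 1)]),
    (2, GenF.stat [0, 2, 3] 1 0 [(0, 0), (2, 1), (3, 0)])])

/-- The certificate of one pattern. -/
def certE50 : List (Fin 6) × ℤ × List (ℤ × GenF) :=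
  ([0, 1, 2, 3, 3], 6, [
    (-6, GenF.prod [0] [2, 3, 1, 3]),
    (-6, GenF.prod [0] [2, 3, 3, 1]),
    (-6, GenF.prod [0] [2, 1, 3, 3]),
    (6, GenF.prod [0, 1] [2, 3, 3]),
    (-3, GenF.stat [0, 1, 3] 2 0 [(0, 1), (3, 0), (3, 0)]),
    (4, GenF.stat [0, 1, 3] 2 0 [(0, 0), (3, 0), (3, 1)]),
    (4, GenF.stat [0, 1, 3] 2 0 [(0, 0), (1, 1), (3, 0)]),
    (4, GenF.stat [0, 1, 3] 2 0 [(0, 0), (0, 1), (3, 0)]),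
    (-2, GenF.stat [0, 1, 3] 2 0 [(0, 0), (0, 0), (3, 1)]),
    (-2, GenF.stat [0, 1, 3] 2 0 [(0, 0), (0, 0), (1, 1)]),
    (-2, GenF.stat [0, 1, 3] 2 0 [(0, 0), (1, 0), (3, 1)]),
    (-2, GenF.stat [0, 1, 3] 2 0 [(0, 0), (0, 1), (1, 0)]),
    (-2, GenF.stat [0, 1, 3] 2 0 [(0, 0), (1, 0), (1, 1)])])

/-- The certificate of one pattern. -/
def certE51 : List (Fin 6) × ℤ × List (ℤ × GenF) :=
  ([0, 1, 2, 3, 4], 1, [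
    (-1, GenF.prod [2] [0, 1, 3, 4]),
    (-1, GenF.prod [0] [2, 3, 1, 4]),
    (-1, GenF.prod [0] [2, 3, 4, 1]),
    (-1, GenF.prod [0] [2, 1, 3, 4]),
    (1, GenF.prod [0, 1] [2, 3, 4]),
    (-1, GenF.prod [2] [0, 3, 4, 1]),
    (-1, GenF.prod [2] [0, 3, 1, 4]),
    (1, GenF.stat [0, 1, 2, 4] 3 0 [(0, 1), (2, 0), (4, 0)]),
    (-1, GenF.prod [2] [3, 0, 1, 4]),
    (-1, GenF.prod [2] [3, 0, 4, 1]),
    (-1, GenF.prod [2] [3, 4, 0, 1]),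
    (1, GenF.stat [1, 2, 3, 4] 0 0 [(1, 0), (2, 0), (3, 1)]),
    (1, GenF.stat [0, 1, 3, 4] 2 0 [(0, 0), (1, 0), (3, 1)])])

/-- The table of all certificates. -/
def certTable : List (List (Fin 6) × ℤ × List (ℤ × GenF)) :=
  [certE0, certE1, certE2, certE3, certE4, certE5, certE6, certE7, certE8, certE9, certE10, certE11, certE12, certE13, certE14, certE15, certE16, certE17, certE18, certE19, certE20, certE21, certE22, certE23, certE24, certE25, certE26, certE27, certE28, certE29, certE30, certE31, certE32, certE33, certE34, certE35, certE36, certE37, certE38, certE39, certE40, certE41, certE42, certE43, certE44, certE45, certE46, certE47, certE48, certE49, certE50, certE51]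

theorem certTable_ok : certTable.all checkF = true := by
  decide +kernel

end Vale.Agent.Lib.P329
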